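import Mathlib
import Vale.Agent.Results.P033.RunBound

/-!
Helper lemmas for the sharp run bound in P033: sine-weighted window sums.
-/

namespace Vale.Agent.Helper4.P033Sine

open Finset
open Vale.Agent.Results.P033.RunBound

theorem sin_mul_sin' (a b : ℝ) :
    Real.sin a * Real.sin b = (Real.cos (a - b) - Real.cos (a + b)) / 2 := by
  rw [Real.cos_sub, Real.cos_add]; ring

theorem sin_mul_cos' (a b : ℝ) :
    Real.sin a * Real.cos b = (Real.sin (a + b) + Real.sin (a - b)) / 2 := by
  rw [Real.sin_add, Real.sin_sub]; ring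

/-- the sine weights -/
noncomputable def wt (x : ℝ) (i : ℕ) : ℝ := Real.sin ((2 * (i : ℝ) + 1) * x)

/-- initial sums of the sine weights -/
theorem wt_sum (x : ℝ) (t : ℕ) :
    Real.sin x * ∑ i ∈ range t, wt x i = (1 - Real.cos (2 * (t : ℝ) * x)) / 2 := by
  induction t with
  | zero => simp
  | succ t ih =>
    rw [Finset.sum_range_succ, mul_add, ih]
    unfold wt
    rw [sin_mul_sin']
    have e1 : x - (2 * (t : ℝ) + 1) * x = -(2 * (t : ℝ) * x) := by ring
    have e2 : x + (2 * (t : ℝ) + 1) * x = 2 * ((t + 1 : ℕ) : ℝ) * x := by push_cast; ring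
    rw [e1, e2, Real.cos_neg]
    ring

/-- the two quadratic sums agree up to a sum of cosines that telescopes -/
theorem cos_sum (x : ℝ) (L : ℕ) :
    Real.sin x * ∑ r ∈ range L,
        (Real.cos (4 * (r : ℝ) * x) + Real.cos ((4 * (r : ℝ) + 2) * x))
      = (Real.sin ((4 * (L : ℝ) - 1) * x) + Real.sin x) / 2 := by
  induction L with
  | zero =>
    simp
  | succ L ih =>
    rw [Finset.sum_range_succ, mul_add, ih, mul_add, sin_mul_cos', sin_mul_cos']
    have e1 : x + 4 * (L : ℝ) * x = (4 * (L : ℝ) + 1) * x := by ring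
    have e2 : x - 4 * (L : ℝ) * x = -((4 * (L : ℝ) - 1) * x) := by ring
    have e3 : x + (4 * (L : ℝ) + 2) * x = (4 * ((L + 1 : ℕ) : ℝ) - 1) * x := by push_cast; ring
    have e4 : x - (4 * (L : ℝ) + 2) * x = -((4 * (L : ℝ) + 1) * x) := by ring
    rw [e1, e2, e3, e4, Real.sin_neg, Real.sin_neg]
    ring

/-- For `x = π / (2 L)` the sum of the squared sine weights equals the sum of the squared
cosines `cos (2 r x)`, `r < L`. -/
theorem sq_sums_eq (L : ℕ) (hL : 1 ≤ L) :
    ∑ r ∈ range L, Real.cos (2 * (r : ℝ) * (Real.pi / (2 * (L : ℝ)))) ^ 2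
      = ∑ i ∈ range L, wt (Real.pi / (2 * (L : ℝ))) i ^ 2 := by
  set x : ℝ := Real.pi / (2 * (L : ℝ)) with hx
  have hLpos : (0 : ℝ) < (L : ℝ) := by exact_mod_cast hL
  have hxpos : 0 < x := by rw [hx]; positivity
  have hxle : x ≤ Real.pi / 2 := by
    rw [hx, div_le_div_iff₀ (by positivity) (by norm_num)]
    have : (1 : ℝ) ≤ (L : ℝ) := by exact_mod_cast hL
    nlinarith [Real.pi_pos]
  have hsin : 0 < Real.sin x := Real.sin_pos_of_pos_of_lt_pi hxpos (by linarith [Real.pi_pos])
  have h2Lx : 2 * (L : ℝ) * x = Real.pi := by rw [hx]; field_simp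
  have hdiff : ∑ r ∈ range L, (Real.cos (2 * (r : ℝ) * x) ^ 2 - wt x r ^ 2) = 0 := by
    have hterm : ∀ r ∈ range L, Real.cos (2 * (r : ℝ) * x) ^ 2 - wt x r ^ 2
        = (Real.cos (4 * (r : ℝ) * x) + Real.cos ((4 * (r : ℝ) + 2) * x)) / 2 := by
      intro r _
      unfold wt
      rw [Real.cos_sq, Real.sin_sq_eq_half_sub]
      have e1 : 2 * (2 * (r : ℝ) * x) = 4 * (r : ℝ) * x := by ring
      have e2 : 2 * ((2 * (r : ℝ) + 1) * x) = (4 * (r : ℝ) + 2) * x := by ring
      rw [e1, e2]; ring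
    rw [Finset.sum_congr rfl hterm, ← Finset.sum_div]
    have hc := cos_sum x L
    have e : (4 * (L : ℝ) - 1) * x = 2 * Real.pi - x := by
      have : 4 * (L : ℝ) * x = 2 * Real.pi := by linarith
      linarith
    rw [e, Real.sin_two_pi_sub] at hc
    have hc' : Real.sin x * ∑ r ∈ range L,
        (Real.cos (4 * (r : ℝ) * x) + Real.cos ((4 * (r : ℝ) + 2) * x)) = 0 := by
      rw [hc]; ring
    rcases mul_eq_zero.mp hc' with h0 | h0
    · exact absurd h0 hsin.ne'
    · rw [h0]; simp
  rw [Finset.sum_sub_distrib] at hdiff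
  linarith

variable {n : ℕ} [NeZero n] {h : ZMod n → ℤ}

/-- Weighted second moment: for any real weights `w` and any `L` pairwise distinct positions
`j, j + d, ..., j + (L-1) d` the squares of the weighted window sums add up to `n * ∑ w i ^ 2`. -/
theorem weighted_sq_sum (hH : IsCirculantHadamardRow n h) (d : ZMod n) (L : ℕ)
    (hd : ∀ i i' : ℕ, i < L → i' < L → (i : ZMod n) * d = (i' : ZMod n) * d → i = i')
    (w : ℕ → ℝ) :
    ∑ j : ZMod n, (∑ i ∈ range L, w i * (h (j + i * d) : ℝ)) ^ 2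
      = (n : ℝ) * ∑ i ∈ range L, w i ^ 2 := by
  have h1 : ∀ j : ZMod n, (∑ i ∈ range L, w i * (h (j + i * d) : ℝ)) ^ 2
      = ∑ i ∈ range L, ∑ i' ∈ range L,
          (w i * w i') * ((h (j + i * d) * h (j + i' * d) : ℤ) : ℝ) := by
    intro j
    rw [sq, Finset.sum_mul_sum]
    refine Finset.sum_congr rfl (fun i _ => Finset.sum_congr rfl (fun i' _ => ?_))
    push_cast
    ring
  simp only [h1]
  rw [Finset.sum_comm, Finset.mul_sum]
  refine Finset.sum_congr rfl (fun i hi => ?_)
  rw [Finset.sum_comm]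
  have h3 : ∀ i' ∈ range L,
      ∑ j : ZMod n, (w i * w i') * ((h (j + i * d) * h (j + i' * d) : ℤ) : ℝ)
        = if i = i' then (n : ℝ) * (w i * w i') else 0 := by
    intro i' hi'
    rw [← Finset.mul_sum, ← Int.cast_sum, autocorr_shift hH]
    have hiff : ((i' : ZMod n) * d - (i : ZMod n) * d = 0) ↔ i = i' := by
      rw [sub_eq_zero]
      constructor
      · intro he
        exact (hd i' i (mem_range.mp hi') (mem_range.mp hi) he).symm
      · rintro rfl
        rfl
    simp only [hiff]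
    by_cases hii : i = i'
    · simp only [hii, if_true]
      push_cast
      ring
    · simp only [hii, if_false]
      push_cast
      ring
  rw [Finset.sum_congr rfl h3]
  simp only [Finset.sum_ite_eq, hi, if_true]
  ring

/-- Lower bound for a weighted window sum when the row takes the value `ε` on the part `G`
of the window. -/
theorem window_lower (hH : IsCirculantHadamardRow n h) (L : ℕ) (w : ℕ → ℝ)
    (hw : ∀ i, i < L → 0 ≤ w i) (f : ℕ → ZMod n) (ε : ℤ) (hε : ε = 1 ∨ ε = -1)
    (G : Finset ℕ) (hG : G ⊆ range L) (hgood : ∀ i ∈ G, h (f i) = ε) :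
    ∑ i ∈ G, w i - ∑ i ∈ range L \ G, w i
      ≤ (ε : ℝ) * ∑ i ∈ range L, w i * (h (f i) : ℝ) := by
  have hsplit : ∑ i ∈ range L, (ε : ℝ) * (w i * (h (f i) : ℝ))
      = ∑ i ∈ range L \ G, (ε : ℝ) * (w i * (h (f i) : ℝ))
        + ∑ i ∈ G, (ε : ℝ) * (w i * (h (f i) : ℝ)) :=
    (Finset.sum_sdiff hG).symm
  rw [Finset.mul_sum, hsplit]
  have hA : ∑ i ∈ G, (ε : ℝ) * (w i * (h (f i) : ℝ)) = ∑ i ∈ G, w i := by
    refine Finset.sum_congr rfl (fun i hi => ?_)
    rw [hgood i hi]
    rcases hε with rfl | rfl <;> push_cast <;> ring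
  have hB : -∑ i ∈ range L \ G, w i
      ≤ ∑ i ∈ range L \ G, (ε : ℝ) * (w i * (h (f i) : ℝ)) := by
    rw [← Finset.sum_neg_distrib]
    refine Finset.sum_le_sum (fun i hi => ?_)
    have hiL : i < L := mem_range.mp (Finset.mem_sdiff.mp hi).1
    have hwi := hw i hiL
    rcases hε with rfl | rfl <;> rcases hH.1 (f i) with hh | hh <;> rw [hh] <;>
      push_cast <;> linarith
  rw [hA]
  linarith

/-- **Sharp second-moment bound.** If the row is constant on `L` pairwise distinct positions
`a, a + d, ..., a + (L-1) d` then `1 ≤ n * sin (π / (2 L)) ^ 2`. -/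
theorem sine_bound (hH : IsCirculantHadamardRow n h) (a d : ZMod n) (L : ℕ) (hL1 : 1 ≤ L)
    (hd : ∀ i i' : ℕ, i < L → i' < L → (i : ZMod n) * d = (i' : ZMod n) * d → i = i')
    (hrun : ∀ i : ℕ, i < L → h (a + i * d) = h a) :
    1 ≤ (n : ℝ) * Real.sin (Real.pi / (2 * (L : ℝ))) ^ 2 := by
  have hsq := sq_sums_eq L hL1
  set x : ℝ := Real.pi / (2 * (L : ℝ)) with hx
  have hLpos : (0 : ℝ) < (L : ℝ) := by exact_mod_cast hL1
  have hL1' : (1 : ℝ) ≤ (L : ℝ) := by exact_mod_cast hL1
  have hxpos : 0 < x := by rw [hx]; positivity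
  have h2Lx : 2 * (L : ℝ) * x = Real.pi := by rw [hx]; field_simp
  have hLx : (L : ℝ) * x = Real.pi / 2 := by linarith
  have hw : ∀ i, i < L → 0 ≤ wt x i := by
    intro i hi
    unfold wt
    apply Real.sin_nonneg_of_nonneg_of_le_pi
    · positivity
    · have hiL : (i : ℝ) + 1 ≤ L := by exact_mod_cast hi
      nlinarith
  have hmom := weighted_sq_sum hH d L hd (wt x)
  have hε : h a = 1 ∨ h a = -1 := hH.1 a
  have hε2 : ((h a : ℤ) : ℝ) ^ 2 = 1 := by
    rcases hε with he | he <;> rw [he] <;> norm_num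
  have hd0 : ∀ k : ℕ, 0 < k → k < L → (k : ZMod n) * d ≠ 0 := by
    intro k hk0 hkL he
    have h0 : (k : ZMod n) * d = ((0 : ℕ) : ZMod n) * d := by
      rw [he]; simp
    have := hd k 0 hkL (by omega) h0
    omega
  have hPL : Real.sin x * ∑ i ∈ range L, wt x i = 1 := by
    rw [wt_sum, h2Lx, Real.cos_pi]; norm_num
  have hP : ∀ r : ℕ, r ≤ L →
      Real.sin x * ∑ i ∈ range (L - r), wt x i = (1 + Real.cos (2 * (r : ℝ) * x)) / 2 := by
    intro r hr
    rw [wt_sum, Nat.cast_sub hr]
    have e : 2 * ((L : ℝ) - (r : ℝ)) * x = Real.pi - 2 * (r : ℝ) * x := by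
      rw [← h2Lx]; ring
    rw [e, Real.cos_pi_sub]
    ring
  -- the positions of the L windows
  let pos : ℕ → ZMod n := fun r =>
    if 2 * r ≤ L then a + (r : ZMod n) * d else a - ((L - r : ℕ) : ZMod n) * d
  have hkey : ∀ r ∈ range L, Real.cos (2 * (r : ℝ) * x) ^ 2
      ≤ Real.sin x ^ 2 * (∑ i ∈ range L, wt x i * (h (pos r + i * d) : ℝ)) ^ 2 := by
    intro r hr
    have hrL := mem_range.mp hr
    have hrL' : (r : ℝ) + 1 ≤ L := by exact_mod_cast hrL
    by_cases hcase : 2 * r ≤ L
    · have hp : pos r = a + (r : ZMod n) * d := by simp only [pos, hcase, if_true]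
      have hgood : ∀ i ∈ range (L - r), h (pos r + (i : ZMod n) * d) = h a := by
        intro i hi
        have hi' := mem_range.mp hi
        have := hrun (r + i) (by omega)
        rw [← this, hp]
        congr 1
        push_cast
        ring
      have hsub : range (L - r) ⊆ range L := by
        intro i hi
        have hi' := mem_range.mp hi
        exact mem_range.mpr (by omega)
      have hlow := window_lower hH L (wt x) hw (fun i => pos r + (i : ZMod n) * d) (h a) hε
        (range (L - r)) hsub hgood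
      have hsd : ∑ i ∈ range L \ range (L - r), wt x i
          = ∑ i ∈ range L, wt x i - ∑ i ∈ range (L - r), wt x i := by
        rw [eq_sub_iff_add_eq, Finset.sum_sdiff hsub]
      rw [hsd] at hlow
      have hcos0 : 0 ≤ Real.cos (2 * (r : ℝ) * x) := by
        apply Real.cos_nonneg_of_neg_pi_div_two_le_of_le
        · have : 0 ≤ 2 * (r : ℝ) * x := by positivity
          linarith [Real.pi_pos]
        · have hr2 : 2 * (r : ℝ) ≤ L := by exact_mod_cast hcase
          nlinarith
      have hle : Real.cos (2 * (r : ℝ) * x)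
          ≤ Real.sin x * ((h a : ℝ) * ∑ i ∈ range L, wt x i * (h (pos r + i * d) : ℝ)) := by
        have h1 := hP r hrL.le
        have hsinpos : 0 ≤ Real.sin x := by
          apply Real.sin_nonneg_of_nonneg_of_le_pi hxpos.le
          nlinarith [Real.pi_pos]
        have h2 := mul_le_mul_of_nonneg_left hlow hsinpos
        have h3 : Real.sin x * (∑ i ∈ range (L - r), wt x i
            - (∑ i ∈ range L, wt x i - ∑ i ∈ range (L - r), wt x i))
            = Real.cos (2 * (r : ℝ) * x) := by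
          have : Real.sin x * (∑ i ∈ range (L - r), wt x i
            - (∑ i ∈ range L, wt x i - ∑ i ∈ range (L - r), wt x i))
            = 2 * (Real.sin x * ∑ i ∈ range (L - r), wt x i)
              - Real.sin x * ∑ i ∈ range L, wt x i := by ring
          rw [this, h1, hPL]; ring
        rw [h3] at h2
        exact h2
      have hsq2 : Real.cos (2 * (r : ℝ) * x) ^ 2
          ≤ (Real.sin x * ((h a : ℝ) * ∑ i ∈ range L, wt x i * (h (pos r + i * d) : ℝ))) ^ 2 :=
        pow_le_pow_left₀ hcos0 hle 2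
      calc Real.cos (2 * (r : ℝ) * x) ^ 2
          ≤ (Real.sin x * ((h a : ℝ) * ∑ i ∈ range L, wt x i * (h (pos r + i * d) : ℝ))) ^ 2 :=
            hsq2
        _ = Real.sin x ^ 2 * (((h a : ℤ) : ℝ) ^ 2
              * (∑ i ∈ range L, wt x i * (h (pos r + i * d) : ℝ)) ^ 2) := by ring
        _ = Real.sin x ^ 2 * (∑ i ∈ range L, wt x i * (h (pos r + i * d) : ℝ)) ^ 2 := by
            rw [hε2, one_mul]
    · have hcase' : L < 2 * r := not_le.mp hcase
      have hp : pos r = a - ((L - r : ℕ) : ZMod n) * d := by simp only [pos, hcase, if_false]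
      have hgood : ∀ i ∈ Finset.Ico (L - r) L, h (pos r + (i : ZMod n) * d) = h a := by
        intro i hi
        have hi' := Finset.mem_Ico.mp hi
        have := hrun (i - (L - r)) (by omega)
        rw [← this, hp, Nat.cast_sub hi'.1]
        congr 1
        ring
      have hsub : Finset.Ico (L - r) L ⊆ range L := by
        intro i hi
        have hi' := Finset.mem_Ico.mp hi
        exact mem_range.mpr hi'.2
      have hlow := window_lower hH L (wt x) hw (fun i => pos r + (i : ZMod n) * d) (h a) hε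
        (Finset.Ico (L - r) L) hsub hgood
      have hsd : range L \ Finset.Ico (L - r) L = range (L - r) := by
        ext i
        simp only [Finset.mem_sdiff, Finset.mem_range, Finset.mem_Ico]
        omega
      have hIco : ∑ i ∈ Finset.Ico (L - r) L, wt x i
          = ∑ i ∈ range L, wt x i - ∑ i ∈ range (L - r), wt x i :=
        Finset.sum_Ico_eq_sub _ (Nat.sub_le L r)
      rw [hsd, hIco] at hlow
      have hcos0 : Real.cos (2 * (r : ℝ) * x) ≤ 0 := by
        apply Real.cos_nonpos_of_pi_div_two_le_of_le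
        · have hr2 : (L : ℝ) ≤ 2 * (r : ℝ) := by exact_mod_cast hcase'.le
          nlinarith
        · nlinarith [Real.pi_pos]
      have hle : -Real.cos (2 * (r : ℝ) * x)
          ≤ Real.sin x * ((h a : ℝ) * ∑ i ∈ range L, wt x i * (h (pos r + i * d) : ℝ)) := by
        have h1 := hP r hrL.le
        have hsinpos : 0 ≤ Real.sin x := by
          apply Real.sin_nonneg_of_nonneg_of_le_pi hxpos.le
          nlinarith [Real.pi_pos]
        have h2 := mul_le_mul_of_nonneg_left hlow hsinpos
        have h3 : Real.sin x * (∑ i ∈ range L, wt x i - ∑ i ∈ range (L - r), wt x i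
            - ∑ i ∈ range (L - r), wt x i)
            = -Real.cos (2 * (r : ℝ) * x) := by
          have : Real.sin x * (∑ i ∈ range L, wt x i - ∑ i ∈ range (L - r), wt x i
            - ∑ i ∈ range (L - r), wt x i)
            = Real.sin x * ∑ i ∈ range L, wt x i
              - 2 * (Real.sin x * ∑ i ∈ range (L - r), wt x i) := by ring
          rw [this, h1, hPL]; ring
        rw [h3] at h2
        exact h2
      have hsq2 : (-Real.cos (2 * (r : ℝ) * x)) ^ 2
          ≤ (Real.sin x * ((h a : ℝ) * ∑ i ∈ range L, wt x i * (h (pos r + i * d) : ℝ))) ^ 2 :=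
        pow_le_pow_left₀ (by linarith) hle 2
      calc Real.cos (2 * (r : ℝ) * x) ^ 2
          = (-Real.cos (2 * (r : ℝ) * x)) ^ 2 := by ring
        _ ≤ (Real.sin x * ((h a : ℝ) * ∑ i ∈ range L, wt x i * (h (pos r + i * d) : ℝ))) ^ 2 :=
            hsq2
        _ = Real.sin x ^ 2 * (((h a : ℤ) : ℝ) ^ 2
              * (∑ i ∈ range L, wt x i * (h (pos r + i * d) : ℝ)) ^ 2) := by ring
        _ = Real.sin x ^ 2 * (∑ i ∈ range L, wt x i * (h (pos r + i * d) : ℝ)) ^ 2 := by
            rw [hε2, one_mul]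
  -- the L window positions are pairwise distinct
  have hinj : Set.InjOn pos (range L : Finset ℕ) := by
    intro r hr r' hr' he
    have hrL := mem_range.mp (mem_coe.mp hr)
    have hrL' := mem_range.mp (mem_coe.mp hr')
    by_contra hne
    by_cases h1 : 2 * r ≤ L <;> by_cases h2 : 2 * r' ≤ L
    · have e1 : pos r = a + (r : ZMod n) * d := by simp only [pos, h1, if_true]
      have e2 : pos r' = a + (r' : ZMod n) * d := by simp only [pos, h2, if_true]
      rw [e1, e2] at he
      exact hne (hd r r' hrL hrL' (add_left_cancel he))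
    · have e1 : pos r = a + (r : ZMod n) * d := by simp only [pos, h1, if_true]
      have e2 : pos r' = a - ((L - r' : ℕ) : ZMod n) * d := by simp only [pos, h2, if_false]
      rw [e1, e2] at he
      have h0 : ((r + (L - r') : ℕ) : ZMod n) * d = 0 := by
        rw [Nat.cast_add]
        linear_combination he
      exact hd0 _ (by omega) (by omega) h0
    · have e1 : pos r = a - ((L - r : ℕ) : ZMod n) * d := by simp only [pos, h1, if_false]
      have e2 : pos r' = a + (r' : ZMod n) * d := by simp only [pos, h2, if_true]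
      rw [e1, e2] at he
      have h0 : ((r' + (L - r) : ℕ) : ZMod n) * d = 0 := by
        rw [Nat.cast_add]
        linear_combination -he
      exact hd0 _ (by omega) (by omega) h0
    · have e1 : pos r = a - ((L - r : ℕ) : ZMod n) * d := by simp only [pos, h1, if_false]
      have e2 : pos r' = a - ((L - r' : ℕ) : ZMod n) * d := by simp only [pos, h2, if_false]
      rw [e1, e2] at he
      have he' : ((L - r : ℕ) : ZMod n) * d = ((L - r' : ℕ) : ZMod n) * d := by
        linear_combination -he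
      have := hd (L - r) (L - r') (by omega) (by omega) he'
      omega
  -- sum the key inequality over the L windows
  have hsum : ∑ r ∈ range L, Real.cos (2 * (r : ℝ) * x) ^ 2
      ≤ Real.sin x ^ 2 * ((n : ℝ) * ∑ i ∈ range L, wt x i ^ 2) := by
    calc ∑ r ∈ range L, Real.cos (2 * (r : ℝ) * x) ^ 2
        ≤ ∑ r ∈ range L,
            Real.sin x ^ 2 * (∑ i ∈ range L, wt x i * (h (pos r + i * d) : ℝ)) ^ 2 :=
          Finset.sum_le_sum hkey
      _ = Real.sin x ^ 2 * ∑ j ∈ (range L).image pos,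
            (∑ i ∈ range L, wt x i * (h (j + i * d) : ℝ)) ^ 2 := by
          rw [Finset.sum_image hinj, Finset.mul_sum]
      _ ≤ Real.sin x ^ 2 * ∑ j : ZMod n,
            (∑ i ∈ range L, wt x i * (h (j + i * d) : ℝ)) ^ 2 := by
          apply mul_le_mul_of_nonneg_left _ (sq_nonneg _)
          exact Finset.sum_le_sum_of_subset_of_nonneg (Finset.subset_univ _)
            (fun _ _ _ => sq_nonneg _)
      _ = Real.sin x ^ 2 * ((n : ℝ) * ∑ i ∈ range L, wt x i ^ 2) := by rw [hmom]
  rw [hsq] at hsum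
  have hWpos : 0 < ∑ i ∈ range L, wt x i ^ 2 := by
    rw [← hsq]
    have h0 : Real.cos (2 * ((0 : ℕ) : ℝ) * x) ^ 2
        ≤ ∑ r ∈ range L, Real.cos (2 * (r : ℝ) * x) ^ 2 :=
      Finset.single_le_sum (f := fun r : ℕ => Real.cos (2 * (r : ℝ) * x) ^ 2)
        (fun _ _ => sq_nonneg _) (mem_range.mpr (by omega))
    have h1 : Real.cos (2 * ((0 : ℕ) : ℝ) * x) ^ 2 = 1 := by simp
    linarith
  have hfin : (∑ i ∈ range L, wt x i ^ 2) * 1
      ≤ (∑ i ∈ range L, wt x i ^ 2) * ((n : ℝ) * Real.sin x ^ 2) := by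
    calc (∑ i ∈ range L, wt x i ^ 2) * 1 = ∑ i ∈ range L, wt x i ^ 2 := mul_one _
      _ ≤ Real.sin x ^ 2 * ((n : ℝ) * ∑ i ∈ range L, wt x i ^ 2) := hsum
      _ = (∑ i ∈ range L, wt x i ^ 2) * ((n : ℝ) * Real.sin x ^ 2) := by ring
  exact le_of_mul_le_mul_left hfin hWpos

/-- Consequence: `4 L^2 < π^2 n`. -/
theorem sine_bound_pi (hH : IsCirculantHadamardRow n h) (a d : ZMod n) (L : ℕ) (hL1 : 1 ≤ L)
    (hd : ∀ i i' : ℕ, i < L → i' < L → (i : ZMod n) * d = (i' : ZMod n) * d → i = i')
    (hrun : ∀ i : ℕ, i < L → h (a + i * d) = h a) :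
    4 * (L : ℝ) ^ 2 < Real.pi ^ 2 * n := by
  have hb := sine_bound hH a d L hL1 hd hrun
  have hLpos : (0 : ℝ) < (L : ℝ) := by exact_mod_cast hL1
  have hL1' : (1 : ℝ) ≤ (L : ℝ) := by exact_mod_cast hL1
  have hnpos : (0 : ℝ) < (n : ℝ) := by exact_mod_cast Nat.pos_of_ne_zero (NeZero.ne n)
  set x : ℝ := Real.pi / (2 * (L : ℝ)) with hx
  have hxpos : 0 < x := by rw [hx]; positivity
  have h2Lx : 2 * (L : ℝ) * x = Real.pi := by rw [hx]; field_simp
  have hsin0 : 0 < Real.sin x := by
    apply Real.sin_pos_of_pos_of_lt_pi hxpos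
    nlinarith [Real.pi_pos]
  have hsinlt : Real.sin x < x := Real.sin_lt hxpos
  have hsq : Real.sin x ^ 2 < x ^ 2 := pow_lt_pow_left₀ hsinlt hsin0.le (by norm_num)
  have h1 : 1 < (n : ℝ) * x ^ 2 := by
    have := mul_lt_mul_of_pos_left hsq hnpos
    linarith
  have h2 : 4 * (L : ℝ) ^ 2 * ((n : ℝ) * x ^ 2) = Real.pi ^ 2 * n := by
    rw [← h2Lx]; ring
  have h3 : 4 * (L : ℝ) ^ 2 * 1 < 4 * (L : ℝ) ^ 2 * ((n : ℝ) * x ^ 2) :=
    mul_lt_mul_of_pos_left h1 (by positivity)
  linarith

end Vale.Agent.Helper4.P033Sine
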